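import Vale.Agent.P017.R4.Defs
import Vale.Agent.P017.R3.H68.Bad

/-!
# P017, row R4-C2: few bad `n`, patterns with (2/p) (StmtBad8 from StmtPNT, StmtChar, StmtChar8)
-/

open Finset

namespace Vale.Agent.P017.R4.H441

open Vale.Agent.P017.R3 Vale.Agent.P017.R4
open Vale.Agent.P017.R3.H68 (prod_pat mem_Bx)
open Vale.Agent.P017.R2.H985 (bit PF Pat sym)
open Vale.Agent.P017.R2.H285 (sg sg_abs prod_exp jac_sqf zmod2)

open Classical in
/-- sign of `ρ` -/
noncomputable def s2 (ρ : ZMod 2) : ℝ := if ρ = 0 then 1 else -1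

theorem s2_abs (ρ : ZMod 2) : |s2 ρ| = 1 := by
  unfold s2
  split_ifs <;> simp

open Classical in
theorem two_pat {p : ℕ} (hp : Odd p) (ρ : ZMod 2) :
    1 + s2 ρ * (jacobiSym 2 p : ℝ) = if bit 2 p = ρ then 2 else 0 := by
  have h3 : jacobiSym 2 p = 1 ∨ jacobiSym 2 p = -1 := by
    apply jacobiSym.eq_one_or_neg_one
    have h : Nat.Coprime 2 p := Nat.coprime_two_left.mpr hp
    exact_mod_cast h
  unfold s2
  rcases h3 with h3 | h3
  · have h4 : bit 2 p = 0 := by unfold bit; rw [if_neg (by rw [h3]; norm_num)]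
    rw [h4, h3]
    rcases zmod2 ρ with h5 | h5
    · rw [h5]; norm_num
    · rw [h5]; norm_num
  · have h4 : bit 2 p = 1 := by unfold bit; rw [if_pos h3]
    rw [h4, h3]
    rcases zmod2 ρ with h5 | h5
    · rw [h5]; norm_num
    · rw [h5]; norm_num

open Classical in
theorem prod_pat8 {n p : ℕ} (hp : p.Prime) (hodd : Odd p) (hnp : ∀ q ∈ n.primeFactors, q < p)
    (φ : Pat n) (ρ : ZMod 2) :
    (∏ q ∈ n.primeFactors, (1 + sg φ q * (jacobiSym (p : ℤ) q : ℝ))) *
      (1 + s2 ρ * (jacobiSym 2 p : ℝ)) =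
      if sym n p = φ ∧ bit 2 p = ρ then 2 * (Fintype.card (Pat n) : ℝ) else 0 := by
  rw [prod_pat hp hnp φ, two_pat hodd ρ]
  by_cases h1 : sym n p = φ
  · by_cases h2 : bit 2 p = ρ
    · rw [if_pos h1, if_pos h2, if_pos ⟨h1, h2⟩]; ring
    · rw [if_pos h1, if_neg h2, if_neg (fun h => h2 h.2)]; ring
  · rw [if_neg h1, zero_mul, if_neg (fun h => h1 h.1)]

/-- the error terms -/
noncomputable def W (l : ℝ) (j e c : ℕ) : ℝ := (if c = 1 then 0 else |Th l j e c|) + |Th8 l j e c|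

theorem W_nonneg (l : ℝ) (j e c : ℕ) : 0 ≤ W l j e c := by
  unfold W
  have h1 : 0 ≤ (if c = 1 then 0 else |Th l j e c|) := by
    split_ifs
    · exact le_rfl
    · exact abs_nonneg _
  have h2 := abs_nonneg (Th8 l j e c)
  linarith

/-- two-sided comparison -/
theorem pat_le8 {l : ℝ} {j e n : ℕ} (he : e = 1 ∨ e = 3) (hn : Squarefree n)
    (hl : ∀ q : ℕ, q ∈ n.primeFactors → (q : ℝ) ≤ l ^ j) (φ : Pat n) (ρ : ZMod 2) :
    |(2 * Fintype.card (Pat n) : ℝ) *
        ∑ p ∈ (Bx l j e).filter (fun p => sym n p = φ ∧ bit 2 p = ρ), Real.log p -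
      Th l j e 1| ≤ ∑ c ∈ n.divisors, W l j e c := by
  classical
  have h1 : (2 * Fintype.card (Pat n) : ℝ) *
      ∑ p ∈ (Bx l j e).filter (fun p => sym n p = φ ∧ bit 2 p = ρ), Real.log p =
      ∑ p ∈ Bx l j e, Real.log p *
        ((∏ q ∈ n.primeFactors, (1 + sg φ q * (jacobiSym (p : ℤ) q : ℝ))) *
          (1 + s2 ρ * (jacobiSym 2 p : ℝ))) := by
    rw [Finset.sum_filter, Finset.mul_sum]
    apply Finset.sum_congr rfl
    intro p hp
    obtain ⟨h2, h3, -, h4⟩ := mem_Bx hp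
    have hodd : Odd p := by
      rw [Nat.odd_iff]; omega
    rw [prod_pat8 h2 hodd (fun q hq => by exact_mod_cast lt_of_le_of_lt (hl q hq) h3) φ ρ]
    split_ifs
    · ring
    · simp
  have h3 : ∑ p ∈ Bx l j e, Real.log p *
        ((∏ q ∈ n.primeFactors, (1 + sg φ q * (jacobiSym (p : ℤ) q : ℝ))) *
          (1 + s2 ρ * (jacobiSym 2 p : ℝ))) =
      ∑ d ∈ n.divisors, (∏ q ∈ d.primeFactors, sg φ q) * (Th l j e d + s2 ρ * Th8 l j e d) := by
    have h4 : ∀ p ∈ Bx l j e, Real.log p *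
        ((∏ q ∈ n.primeFactors, (1 + sg φ q * (jacobiSym (p : ℤ) q : ℝ))) *
          (1 + s2 ρ * (jacobiSym 2 p : ℝ))) =
        ∑ d ∈ n.divisors, (∏ q ∈ d.primeFactors, sg φ q) *
          (Real.log p * (jacobiSym (p : ℤ) d : ℝ) +
            s2 ρ * (Real.log p * ((jacobiSym (p : ℤ) d : ℝ) * (jacobiSym 2 p : ℝ)))) := by
      intro p _
      rw [prod_exp (fun q => sg φ q * (jacobiSym (p : ℤ) q : ℝ)) hn, Finset.sum_mul,
        Finset.mul_sum]
      apply Finset.sum_congr rfl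
      intro d hd
      have hdm : Squarefree d := hn.squarefree_of_dvd (Nat.dvd_of_mem_divisors hd)
      rw [jac_sqf (p : ℤ) hdm, Finset.prod_mul_distrib]
      push_cast
      ring
    rw [Finset.sum_congr rfl h4, Finset.sum_comm]
    apply Finset.sum_congr rfl
    intro d _
    rw [← Finset.mul_sum, Finset.sum_add_distrib, ← Finset.mul_sum]
    rfl
  rw [h1, h3, ← Finset.add_sum_erase _ _ (Nat.one_mem_divisors.mpr hn.ne_zero)]
  have h5 : (∏ q ∈ (1 : ℕ).primeFactors, sg φ q) * (Th l j e 1 + s2 ρ * Th8 l j e 1) =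
      Th l j e 1 + s2 ρ * Th8 l j e 1 := by
    rw [Nat.primeFactors_one, Finset.prod_empty, one_mul]
  rw [h5]
  have h6 : Th l j e 1 + s2 ρ * Th8 l j e 1 +
      ∑ d ∈ n.divisors.erase 1, (∏ q ∈ d.primeFactors, sg φ q) *
        (Th l j e d + s2 ρ * Th8 l j e d) - Th l j e 1 =
      s2 ρ * Th8 l j e 1 + ∑ d ∈ n.divisors.erase 1, (∏ q ∈ d.primeFactors, sg φ q) *
        (Th l j e d + s2 ρ * Th8 l j e d) := by ring
  rw [h6, ← Finset.add_sum_erase _ (fun c => W l j e c) (Nat.one_mem_divisors.mpr hn.ne_zero)]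
  refine (abs_add_le _ _).trans (add_le_add ?_ ?_)
  · rw [abs_mul, s2_abs, one_mul]
    unfold W
    rw [if_pos rfl, zero_add]
  · refine (Finset.abs_sum_le_sum_abs _ _).trans (Finset.sum_le_sum fun c hc => ?_)
    rw [abs_mul, Finset.abs_prod, Finset.prod_congr rfl fun q _ => sg_abs φ q,
      Finset.prod_const_one, one_mul]
    unfold W
    rw [if_neg (Finset.ne_of_mem_erase hc)]
    refine (abs_add_le _ _).trans ?_
    rw [abs_mul, s2_abs, one_mul]

/-- bad `n` have large character sums -/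
theorem bad_lt8 {l δ : ℝ} (hl1 : 1 < l) (hδ : 0 < δ) {j e n : ℕ} (he : e = 1 ∨ e = 3) (hj : 1 ≤ j)
    (hjδ : 2 / δ ≤ j) (hn : Squarefree n)
    (hl : ∀ q : ℕ, q ∈ n.primeFactors → (q : ℝ) ≤ l ^ j) (hb : Bad8 l δ j e n) :
    δ / 4 * Th l j e 1 < ∑ c ∈ n.divisors, W l j e c := by
  classical
  obtain ⟨φ, ρ, hφ⟩ := hb
  set P : ℝ := (2 * Fintype.card (Pat n) : ℝ) with hP
  set S := (Bx l j e).filter (fun p => sym n p = φ ∧ bit 2 p = ρ) with hS
  set R := ∑ c ∈ n.divisors, W l j e c with hR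
  have hpat := pat_le8 he hn hl φ ρ
  rw [← hP, ← hS, ← hR] at hpat
  set g := Real.log l with hg
  have hg0 : 0 < g := Real.log_pos hl1
  have hjR : (1 : ℝ) ≤ j := by exact_mod_cast hj
  set L := (j : ℝ) * g with hL
  have hL0 : 0 < L := by positivity
  have hgL : g ≤ L := by rw [hL]; nlinarith
  have hP0 : 0 ≤ P := by positivity
  have hT1 : Th l j e 1 = ∑ p ∈ Bx l j e, Real.log p := by
    unfold Th
    refine Finset.sum_congr rfl fun p _ => ?_
    rw [jacobiSym.one_right]; simp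
  -- logs in the box
  have hlog : ∀ p ∈ Bx l j e, L ≤ Real.log p ∧ Real.log p ≤ L + g := by
    intro p hp
    obtain ⟨h2, h3, h4, -⟩ := mem_Bx hp
    have hp0 : (0 : ℝ) < p := by exact_mod_cast h2.pos
    constructor
    · rw [hL, hg, ← Real.log_pow]
      exact Real.log_le_log (by positivity) h3.le
    · have h5 := Real.log_le_log hp0 h4
      rw [Real.log_pow] at h5
      push_cast at h5
      rw [hL, hg]; linarith
  have hsum : ∀ W : Finset ℕ, W ⊆ Bx l j e →
      L * W.card ≤ ∑ p ∈ W, Real.log p ∧ ∑ p ∈ W, Real.log p ≤ (L + g) * W.card := by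
    intro W hW
    constructor
    · rw [mul_comm, ← nsmul_eq_mul]
      exact Finset.card_nsmul_le_sum _ _ _ fun p hp => (hlog p (hW hp)).1
    · rw [mul_comm, ← nsmul_eq_mul]
      exact Finset.sum_le_card_nsmul _ _ _ fun p hp => (hlog p (hW hp)).2
  obtain ⟨b1, b2⟩ := hsum (Bx l j e) subset_rfl
  obtain ⟨s1, s2⟩ := hsum S (Finset.filter_subset _ _)
  rw [hT1] at hpat ⊢
  set T := ∑ p ∈ Bx l j e, Real.log p with hT
  set Tφ := ∑ p ∈ S, Real.log p with hTφ
  set B : ℝ := ((Bx l j e).card : ℝ) with hB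
  set s : ℝ := (S.card : ℝ) with hs
  have hB0 : 0 ≤ B := by positivity
  have hs0 : 0 ≤ s := by positivity
  have hT0 : 0 ≤ T := le_trans (by positivity) b1
  have hR0 : 0 ≤ R := le_trans (abs_nonneg _) hpat
  obtain ⟨p1, p2⟩ := abs_le.1 hpat
  -- |P s - B| L (L + g) <= R (L + g) + T g
  have key : |P * s - B| * (L * (L + g)) ≤ R * (L + g) + T * g := by
    rcases le_total 0 (P * s - B) with h | h
    · rw [abs_of_nonneg h]
      have e1 : P * (L * s) ≤ P * Tφ := mul_le_mul_of_nonneg_left s1 hP0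
      have e2 : P * s * L * (L + g) ≤ (T + R) * (L + g) := by
        apply mul_le_mul_of_nonneg_right _ (by positivity)
        linarith
      have e3 : T * L ≤ (L + g) * B * L := mul_le_mul_of_nonneg_right b2 hL0.le
      have e4 : (P * s - B) * (L * (L + g)) = P * s * L * (L + g) - (L + g) * B * L := by ring
      have e5 : (T + R) * (L + g) - T * L = R * (L + g) + T * g := by ring
      linarith
    · rw [abs_of_nonpos h]
      have e1 : P * Tφ ≤ P * ((L + g) * s) := mul_le_mul_of_nonneg_left s2 hP0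
      have e2 : (T - R) * L ≤ P * s * (L + g) * L := by
        apply mul_le_mul_of_nonneg_right _ hL0.le
        linarith
      have e3 : L * B * (L + g) ≤ T * (L + g) := mul_le_mul_of_nonneg_right b1 (by positivity)
      have e4 : -(P * s - B) * (L * (L + g)) = L * B * (L + g) - P * s * (L + g) * L := by ring
      have e5 : T * (L + g) - (T - R) * L = R * L + T * g := by ring
      have e6 : R * L ≤ R * (L + g) := mul_le_mul_of_nonneg_left (by linarith) hR0
      linarith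
  have h1 : δ * B * (L * (L + g)) < R * (L + g) + T * g :=
    lt_of_lt_of_le (mul_lt_mul_of_pos_right hφ (by positivity)) key
  have h2 : δ * T * L ≤ δ * B * (L * (L + g)) := by
    calc δ * T * L = T * (δ * L) := by ring
      _ ≤ (L + g) * B * (δ * L) := mul_le_mul_of_nonneg_right b2 (by positivity)
      _ = _ := by ring
  have h3 : T * g ≤ δ / 2 * T * L := by
    have h4 : 1 ≤ δ / 2 * j := by
      rw [div_le_iff₀ hδ] at hjδ
      linarith
    calc T * g = T * g * 1 := by ring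
      _ ≤ T * g * (δ / 2 * j) := mul_le_mul_of_nonneg_left h4 (by positivity)
      _ = _ := by rw [hL]; ring
  have h5 : R * (L + g) ≤ R * (2 * L) := mul_le_mul_of_nonneg_left (by linarith) hR0
  have h6 : (δ / 4 * T) * (2 * L) < R * (2 * L) := by
    have h7 : (δ / 4 * T) * (2 * L) = δ * T * L - δ / 2 * T * L := by ring
    linarith
  exact lt_of_mul_lt_mul_right h6 (by positivity)

/-- (C2) -/
theorem stmtBad8 (hPNT : StmtPNT) (hChar : StmtChar) (hChar8 : StmtChar8) : StmtBad8 := by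
  classical
  intro l hl1 hl2 A δ ε hδ hε
  have hl0 : 0 < l := by linarith
  set κ := δ * (l - 1) / 16 with hκ
  have hκ0 : 0 < κ := by
    have : 0 < l - 1 := by linarith
    positivity
  obtain ⟨j₁, h1⟩ := hPNT l hl1 hl2 ((l - 1) / 4) (by linarith)
  obtain ⟨j₂, h2⟩ := hChar l hl1 hl2 A (ε * κ / 2) (by positivity)
  obtain ⟨j₃, h3'⟩ := hChar8 l hl1 hl2 A (ε * κ / 2) (by positivity)
  refine ⟨max (max j₁ (max j₂ j₃)) (max 1 ⌈2 / δ⌉₊), fun j hj e he Z hZ => ?_⟩
  have hj1 : j₁ ≤ j := le_trans (le_trans (le_max_left _ _) (le_max_left _ _)) hj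
  have hj2 : j₂ ≤ j := le_trans (le_trans (le_trans (le_max_left _ _) (le_max_right _ _))
    (le_max_left _ _)) hj
  have hj2' : j₃ ≤ j := le_trans (le_trans (le_trans (le_max_right _ _) (le_max_right _ _))
    (le_max_left _ _)) hj
  have hj3 : 1 ≤ j := le_trans (le_trans (le_max_left _ _) (le_max_right _ _)) hj
  have hj4 : 2 / δ ≤ j := le_trans (Nat.le_ceil _)
    (by exact_mod_cast le_trans (le_trans (le_max_right _ _) (le_max_right _ _)) hj)
  have hT := h1 j hj1 e he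
  have hC1 := h2 j hj2 e he
  have hC2 := h3' j hj2' e he
  have hlj : 0 < l ^ j := by positivity
  have hT' : (l - 1) / 4 * l ^ j ≤ Th l j e 1 := by
    have := (abs_le.1 hT).1
    nlinarith
  set F := (Icc 1 Z).filter (fun n => Squarefree n ∧ Odd n ∧
    (∀ p : ℕ, p ∈ n.primeFactors → (p : ℝ) ≤ l ^ j) ∧ Bad8 l δ j e n) with hF
  set D := (Icc 1 ⌊l ^ (A * j)⌋₊).filter (fun c => Squarefree c ∧ Odd c) with hD
  have hZfl : Z ≤ ⌊l ^ (A * j)⌋₊ := Nat.le_floor hZ
  -- the sum of the weights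
  have hC : ∑ c ∈ D, W l j e c / c ≤ ε * κ * l ^ j := by
    have h4 : ∑ c ∈ D, W l j e c / c =
        ∑ c ∈ D, (if c = 1 then 0 else |Th l j e c| / c) + ∑ c ∈ D, |Th8 l j e c| / c := by
      rw [← Finset.sum_add_distrib]
      refine Finset.sum_congr rfl fun c _ => ?_
      unfold W
      split_ifs
      · rw [zero_add, zero_add]
      · rw [add_div]
    have h5 : ∑ c ∈ D, (if c = 1 then 0 else |Th l j e c| / c) ≤
        ∑ c ∈ (Icc 2 ⌊l ^ (A * j)⌋₊).filter (fun c => Squarefree c ∧ Odd c), |Th l j e c| / c := by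
      have h6 : ∑ c ∈ D, (if c = 1 then (0 : ℝ) else |Th l j e c| / c) =
          ∑ c ∈ D.filter (fun c => ¬ c = 1), |Th l j e c| / c := by
        refine Eq.trans (Finset.sum_congr rfl fun c _ => ?_)
          (Finset.sum_filter (s := D) (fun c => ¬ c = 1) (fun c => |Th l j e c| / (c : ℝ))).symm
        by_cases hc : c = 1
        · rw [if_pos hc, if_neg (fun h => h hc)]
        · rw [if_neg hc, if_pos hc]
      rw [h6]
      apply Finset.sum_le_sum_of_subset_of_nonneg
      · intro c hc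
        rw [mem_filter, hD, mem_filter, mem_Icc] at hc
        rw [mem_filter, mem_Icc]
        obtain ⟨⟨⟨hc1, hc2⟩, hc3⟩, hc4⟩ := hc
        exact ⟨⟨by omega, hc2⟩, hc3⟩
      · intro c _ _
        positivity
    rw [h4]
    calc _ ≤ ε * κ / 2 * l ^ j + ε * κ / 2 * l ^ j := add_le_add (h5.trans hC1) hC2
      _ = ε * κ * l ^ j := by ring
  -- pointwise
  have hpt : ∀ n ∈ F, 1 ≤ ∑ c ∈ D, (W l j e c / (κ * l ^ j)) * (if c ∣ n then (1 : ℝ) else 0) := by
    intro n hn
    rw [hF, mem_filter, mem_Icc] at hn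
    obtain ⟨⟨hn1, hn2⟩, hsq, hodd, hp, hbad⟩ := hn
    have h3 := bad_lt8 hl1 hδ he hj3 hj4 hsq hp hbad
    have h4 : κ * l ^ j ≤ ∑ c ∈ n.divisors, W l j e c := by
      refine le_trans ?_ h3.le
      calc κ * l ^ j = δ / 4 * ((l - 1) / 4 * l ^ j) := by rw [hκ]; ring
        _ ≤ δ / 4 * Th l j e 1 := mul_le_mul_of_nonneg_left hT' (by positivity)
    have hsub : n.divisors ⊆ D.filter (fun c => c ∣ n) := by
      intro c hc
      rw [Nat.mem_divisors] at hc
      obtain ⟨hcm, hn0⟩ := hc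
      have hc0 : 0 < c := Nat.pos_of_dvd_of_pos hcm (by omega)
      have hcle : c ≤ n := Nat.le_of_dvd (by omega) hcm
      rw [mem_filter, hD, mem_filter, mem_Icc]
      exact ⟨⟨⟨by omega, by omega⟩, hsq.squarefree_of_dvd hcm, Odd.of_dvd_nat hodd hcm⟩, hcm⟩
    have hle : ∑ c ∈ n.divisors, W l j e c ≤
        ∑ c ∈ D, W l j e c * (if c ∣ n then 1 else 0) := by
      calc ∑ c ∈ n.divisors, W l j e c ≤
          ∑ c ∈ D.filter (fun c => c ∣ n), W l j e c :=
            Finset.sum_le_sum_of_subset_of_nonneg hsub fun _ _ _ => W_nonneg _ _ _ _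
        _ = _ := by
            rw [Finset.sum_filter]
            refine Finset.sum_congr rfl fun c _ => ?_
            split_ifs <;> simp
    have h5 : 1 ≤ (∑ c ∈ D, W l j e c * (if c ∣ n then 1 else 0)) / (κ * l ^ j) := by
      rw [one_le_div (by positivity)]
      linarith
    refine h5.trans (le_of_eq ?_)
    rw [Finset.sum_div]
    refine Finset.sum_congr rfl fun c _ => ?_
    ring
  have hmult : ∀ c ∈ D, ∑ n ∈ F, (if c ∣ n then (1 : ℝ) else 0) ≤ (Z : ℝ) / c := by
    intro c hc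
    rw [hD, mem_filter, mem_Icc] at hc
    calc ∑ n ∈ F, (if c ∣ n then (1 : ℝ) else 0)
        ≤ ∑ n ∈ Ioc 0 Z, (if c ∣ n then (1 : ℝ) else 0) := by
          apply Finset.sum_le_sum_of_subset_of_nonneg
          · intro n hn
            rw [hF, mem_filter, mem_Icc] at hn
            rw [mem_Ioc]; omega
          · intro n _ _
            split_ifs <;> norm_num
      _ = ((Z / c : ℕ) : ℝ) := by
          rw [← Nat.Ioc_filter_dvd_card_eq_div, Finset.card_filter]
          push_cast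
          rfl
      _ ≤ (Z : ℝ) / c := Nat.cast_div_le
  calc (F.card : ℝ) = ∑ n ∈ F, (1 : ℝ) := by simp
    _ ≤ ∑ n ∈ F, ∑ c ∈ D, (W l j e c / (κ * l ^ j)) * (if c ∣ n then (1 : ℝ) else 0) :=
        Finset.sum_le_sum hpt
    _ = ∑ c ∈ D, (W l j e c / (κ * l ^ j)) * ∑ n ∈ F, (if c ∣ n then (1 : ℝ) else 0) := by
        rw [Finset.sum_comm]
        refine Finset.sum_congr rfl fun c _ => ?_
        rw [Finset.mul_sum]
    _ ≤ ∑ c ∈ D, (W l j e c / (κ * l ^ j)) * ((Z : ℝ) / c) :=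
        Finset.sum_le_sum fun c hc => mul_le_mul_of_nonneg_left (hmult c hc)
          (div_nonneg (W_nonneg _ _ _ _) (by positivity))
    _ = (Z / (κ * l ^ j)) * ∑ c ∈ D, W l j e c / c := by
        rw [Finset.mul_sum]
        refine Finset.sum_congr rfl fun c _ => ?_
        ring
    _ ≤ (Z / (κ * l ^ j)) * (ε * κ * l ^ j) := mul_le_mul_of_nonneg_left hC (by positivity)
    _ = ε * Z := by
        field_simp

end Vale.Agent.P017.R4.H441
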